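import Vale.Agent.P181.SZA.Bonus
import Vale.Agent.P181.SZ.Final
import Vale.Agent.P181.R2.H959.AllY
import Vale.Agent.P181.H463.Big

set_option autoImplicit false

/-!
# P181, SZ: few rows, a long third row, `b ≥ C a`
-/

namespace Vale.Agent.P181.SZA.H376

open Filter
open Vale.Agent.P181.SZ
open Vale.Agent.P181.T4 (ex ex_of_lt ex_anti)
open Vale.Agent.P181.T7 (cells)
open Vale.Agent.P181.H280 (plethMult)

/-- The finite form for `b ≥ 4 a`, unconditional. -/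
theorem finB : FinB :=
  fin_asmB R1b.upperS SZR2.lowerS (SZR3.splitS SZT0.transS) SZR4.few_s (SZR5.markS SZT0.transS)
    SZC1.flowS (SZN4.num_s SZN3.lbcF SZN3.lbrF)

/-- **The bonus clause**, unconditional. -/
theorem bonus (ε : ℝ) (hε : 0 < ε) : ∃ a₀ : ℕ, ∀ a b : ℕ, a₀ ≤ a →
    4 * a ≤ b → ∀ (n : ℕ) (lam : Fin n → ℕ),
    (a : ℝ) ^ (1 + ε) ≤ ((ex lam 2 : ℕ) : ℝ) → ((cells 1 lam : ℕ) : ℝ) ≤ (a : ℝ) ^ (2 - ε) →
    (∃ R : ℕ, (R : ℝ) * ε ≤ 1 ∧ (a : ℝ) ^ ε * ((cells R lam : ℕ) : ℝ) ≤ ((ex lam 2 : ℕ) : ℝ)) →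
    plethMult a b n lam ≤ plethMult b a n lam :=
  bonus_of_fin finB ε hε

lemma ev_pow (c : ℝ) (hc : 0 < c) (M : ℝ) : ∀ᶠ a : ℕ in atTop, M ≤ (a : ℝ) ^ c :=
  ((tendsto_rpow_atTop hc).comp tendsto_natCast_atTop_atTop).eventually_ge_atTop M

/-- many cells in the rows two and three -/
lemma mix_ev (n : ℕ) (e : ℝ) (he : 0 < e) (he1 : e ≤ 1) : ∃ C a₀ : ℕ, ∀ a b : ℕ, a₀ ≤ a →
    C * a ≤ b → b ≤ a ^ 2 → ∀ lam : Fin (n + 3) → ℕ,
    (a : ℝ) ^ (1 + e) ≤ (lam 2 : ℝ) → (a : ℝ) ^ (3 + e) ≤ (lam 1 : ℝ) * lam 2 →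
    plethMult a b (n + 3) lam ≤ plethMult b a (n + 3) lam := by
  obtain ⟨C, hC⟩ := FR.all_mix_qs n
  obtain ⟨q, hq⟩ : ∃ q : ℕ, q = ⌈12 / e⌉₊ + 1 := ⟨_, rfl⟩
  have hqe : 12 ≤ e * q := by
    have h1 : 12 / e ≤ q := by
      rw [hq]
      push_cast
      have := Nat.le_ceil (12 / e)
      linarith
    rw [div_le_iff₀ he] at h1
    linarith
  have hq1 : 1 ≤ q := by omega
  obtain ⟨a₀, ha₀⟩ := eventually_atTop.1 ((ev_pow (3 * e / 4) (by linarith)
    (2 * C * (q : ℝ) ^ 3 + 2)).and (eventually_ge_atTop 2))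
  refine ⟨C * q, a₀, fun a b ha hab hb2 lam h3 h23 => ?_⟩
  obtain ⟨g1, g2⟩ := ha₀ a ha
  have hA2 : (2 : ℝ) ≤ a := by exact_mod_cast g2
  have hA1 : (1 : ℝ) ≤ a := by linarith
  have hA0 : (0 : ℝ) < a := by linarith
  obtain ⟨y, hy⟩ : ∃ y : ℝ, y = (a : ℝ) ^ (e / 4) := ⟨_, rfl⟩
  have hy1 : 1 < y := by
    rw [hy]
    exact Real.one_lt_rpow (by linarith) (by linarith)
  obtain ⟨s, hs⟩ : ∃ s : ℕ, s = ⌈y⌉₊ := ⟨_, rfl⟩
  have hsy : y ≤ s := by
    rw [hs]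
    exact Nat.le_ceil _
  have hsy2 : (s : ℝ) ≤ 2 * y := by
    rw [hs]
    have := Nat.ceil_lt_add_one (by linarith : (0 : ℝ) ≤ y)
    linarith
  have hs2 : 2 ≤ s := by
    have h1 : (1 : ℝ) < s := by linarith
    have h2 : 1 < s := by exact_mod_cast h1
    omega
  have hyq : (a : ℝ) ^ 3 ≤ (s : ℝ) ^ q := by
    calc (a : ℝ) ^ 3 = (a : ℝ) ^ (3 : ℝ) := by
          rw [show (3 : ℝ) = ((3 : ℕ) : ℝ) by norm_num, Real.rpow_natCast]
      _ ≤ (a : ℝ) ^ (e / 4 * q) := Real.rpow_le_rpow_of_exponent_le hA1 (by linarith)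
      _ = y ^ q := by rw [Real.rpow_mul hA0.le, Real.rpow_natCast, hy]
      _ ≤ (s : ℝ) ^ q := pow_le_pow_left₀ (by linarith) hsy q
  have hy34 : 2 * C * (q : ℝ) ^ 3 * y ≤ (a : ℝ) ^ e := by
    calc 2 * C * (q : ℝ) ^ 3 * y ≤ (a : ℝ) ^ (3 * e / 4) * y :=
          mul_le_mul_of_nonneg_right (by linarith) (by linarith)
      _ = (a : ℝ) ^ e := by
          rw [hy, ← Real.rpow_add hA0]
          congr 1
          ring
  have hq1R : (1 : ℝ) ≤ q := by exact_mod_cast hq1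
  have hC0 : (0 : ℝ) ≤ C := Nat.cast_nonneg _
  have hqq : (q : ℝ) ≤ (q : ℝ) ^ 3 := le_self_pow₀ hq1R (by norm_num)
  have hqq2 : (q : ℝ) ^ 2 ≤ (q : ℝ) ^ 3 := pow_le_pow_right₀ hq1R (by norm_num)
  refine hC a b q s lam hq1 hs2 ?_ ?_ ?_ ?_ ?_
  · have h1 : b + 1 ≤ a ^ 3 := by
      have h2 : 2 * a ^ 2 ≤ a * a ^ 2 := Nat.mul_le_mul_right _ g2
      have h3' : a * a ^ 2 = a ^ 3 := by ring
      have h4 : 1 ≤ a ^ 2 := Nat.one_le_pow _ _ (by omega)
      omega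
    have h2 : a ^ 3 ≤ s ^ q := by exact_mod_cast hyq
    exact h1.trans h2
  · have h1 : (C : ℝ) * (q * s) ≤ a := by
      calc (C : ℝ) * (q * s) ≤ C * ((q : ℝ) ^ 3 * (2 * y)) := by gcongr
        _ = 2 * C * (q : ℝ) ^ 3 * y := by ring
        _ ≤ (a : ℝ) ^ e := hy34
        _ ≤ (a : ℝ) ^ (1 : ℝ) := Real.rpow_le_rpow_of_exponent_le hA1 he1
        _ = a := Real.rpow_one _
    exact_mod_cast h1
  · calc C * (a * q) = C * q * a := by ring
      _ ≤ b := hab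
  · have h1 : (C : ℝ) * (a * (q : ℝ) ^ 2 * s) ≤ lam 2 := by
      calc (C : ℝ) * (a * (q : ℝ) ^ 2 * s) ≤ C * (a * (q : ℝ) ^ 3 * (2 * y)) := by gcongr
        _ = a * (2 * C * (q : ℝ) ^ 3 * y) := by ring
        _ ≤ a * (a : ℝ) ^ e := mul_le_mul_of_nonneg_left hy34 hA0.le
        _ = (a : ℝ) ^ (1 + e) := by rw [Real.rpow_add hA0, Real.rpow_one]
        _ ≤ lam 2 := h3
    exact_mod_cast h1
  · have h1 : (C : ℝ) * ((a * q) ^ 3 * s) ≤ (lam 1 : ℝ) * lam 2 := by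
      calc (C : ℝ) * (((a : ℝ) * q) ^ 3 * s) ≤ C * (((a : ℝ) * q) ^ 3 * (2 * y)) := by gcongr
        _ = (a : ℝ) ^ 3 * (2 * C * (q : ℝ) ^ 3 * y) := by ring
        _ ≤ (a : ℝ) ^ 3 * (a : ℝ) ^ e := mul_le_mul_of_nonneg_left hy34 (by positivity)
        _ = (a : ℝ) ^ (3 + e) := by
            rw [Real.rpow_add hA0, show (3 : ℝ) = ((3 : ℕ) : ℝ) by norm_num, Real.rpow_natCast]
        _ ≤ _ := h23
    exact_mod_cast h1

/-- a partition with at most `m` nonzero entries -/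
lemma few_nonzero {N m : ℕ} (lam : Fin N → ℕ) (hanti : Antitone lam)
    (h : (Finset.univ.filter fun i => lam i ≠ 0).card ≤ m) : N ≤ m ∨ ex lam m = 0 := by
  by_contra hc
  push Not at hc
  obtain ⟨h1, h2⟩ := hc
  have h3 : ((Finset.range (m + 1)).attach.image fun i : {x // x ∈ Finset.range (m + 1)} =>
      (⟨i.1, lt_of_le_of_lt (Nat.lt_succ_iff.1 (Finset.mem_range.1 i.2)) h1⟩ : Fin N)) ⊆
      Finset.univ.filter fun i => lam i ≠ 0 := by
    intro i hi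
    rw [Finset.mem_image] at hi
    obtain ⟨j, -, rfl⟩ := hi
    rw [Finset.mem_filter]
    refine ⟨Finset.mem_univ _, ?_⟩
    have h4 : ex lam m ≤ ex lam j.1 :=
      ex_anti hanti (Nat.lt_succ_iff.1 (Finset.mem_range.1 j.2))
    have h5 : j.1 < N := lt_of_le_of_lt (Nat.lt_succ_iff.1 (Finset.mem_range.1 j.2)) h1
    rw [ex_of_lt lam h5] at h4
    omega
  have h4 := Finset.card_le_card h3
  rw [Finset.card_image_of_injective, Finset.card_attach, Finset.card_range] at h4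
  · omega
  · intro i j hij
    simp only [Fin.mk.injEq] at hij
    exact Subtype.ext hij

lemma cells_one_le {N : ℕ} (lam : Fin N → ℕ) (hanti : Antitone lam) :
    cells 1 lam ≤ N * ex lam 1 := by
  unfold cells
  calc ∑ i : Fin N, (if 1 ≤ (i : ℕ) then lam i else 0) ≤ ∑ _i : Fin N, ex lam 1 := by
        apply Finset.sum_le_sum
        intro i _
        split_ifs with h
        · have h1 : ex lam (i : ℕ) ≤ ex lam 1 := ex_anti hanti h
          rwa [ex_of_lt lam i.2] at h1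
        · exact Nat.zero_le _
    _ = N * ex lam 1 := by rw [Finset.sum_const, Finset.card_univ, Fintype.card_fin, smul_eq_mul]

/-- **Few rows and a long third row**, `b ≥ C a`. -/
theorem third_row (m : ℕ) (ε : ℝ) (hε : 0 < ε) : ∃ C : ℝ, ∀ a b : ℕ, C * (a : ℝ) ≤ b →
    ∀ (n : ℕ) (lam : Fin n → ℕ), (Finset.univ.filter fun i => lam i ≠ 0).card ≤ m →
    (a : ℝ) ^ (1 + ε) ≤ ((ex lam 2 : ℕ) : ℝ) → plethMult a b n lam ≤ plethMult b a n lam := by
  obtain ⟨e, he⟩ : ∃ e, e = min ε 1 := ⟨_, rfl⟩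
  have he0 : 0 < e := by
    rw [he]
    exact lt_min hε one_pos
  have heε : e ≤ ε := by
    rw [he]
    exact min_le_left _ _
  have he1 : e ≤ 1 := by
    rw [he]
    exact min_le_right _ _
  obtain ⟨t, ht⟩ : ∃ t : ℝ, t = min (e / 4) (1 / ((m : ℝ) + 3)) := ⟨_, rfl⟩
  have ht0 : 0 < t := by
    rw [ht]
    exact lt_min (by linarith) (by positivity)
  have hte : t ≤ e / 4 := by
    rw [ht]
    exact min_le_left _ _
  have htm : ((m + 3 : ℕ) : ℝ) * t ≤ 1 := by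
    have h1 : t ≤ 1 / ((m : ℝ) + 3) := by
      rw [ht]
      exact min_le_right _ _
    rw [le_div_iff₀ (by positivity)] at h1
    push_cast
    linarith
  obtain ⟨C₁, a₁, h1⟩ := mix_ev m (e / 2) (by linarith) (by linarith)
  obtain ⟨a₂, h2⟩ := bonus t ht0
  obtain ⟨a₃, h3⟩ := eventually_atTop.1 ((ev_pow (e / 4) (by linarith)
    ((m : ℝ) + 3)).and (eventually_ge_atTop 1))
  obtain ⟨M, hM⟩ : ∃ M : ℕ, M = C₁ + a₁ + a₂ + a₃ + 4 := ⟨_, rfl⟩
  refine ⟨(M : ℝ), fun a b hab n lam hm hl2 => ?_⟩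
  have hab' : M * a ≤ b := by exact_mod_cast hab
  -- small `a`
  rcases Nat.lt_or_ge a M with ha | ha
  · apply H463.big_stmt
    calc (a - 1) ^ 2 ≤ a ^ 2 := Nat.pow_le_pow_left (Nat.sub_le _ _) 2
      _ = a * a := sq a
      _ ≤ M * a := Nat.mul_le_mul_right _ ha.le
      _ ≤ b := hab'
  rcases Nat.lt_or_ge (a ^ 2) b with hb2 | hb2
  · apply H463.big_stmt
    exact (Nat.pow_le_pow_left (Nat.sub_le _ _) 2).trans hb2.le
  by_cases hz : plethMult a b n lam = 0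
  · rw [hz]
    exact Nat.zero_le _
  obtain ⟨hanti, -, -⟩ := H530.zero_stmt a b n lam hz
  have h0 : n ≤ m + 3 ∨ ex lam (m + 3) = 0 := by
    rcases few_nonzero lam hanti hm with h | h
    · exact Or.inl (by omega)
    · right
      have h4 : ex lam (m + 3) ≤ ex lam m := ex_anti hanti (by omega)
      omega
  obtain ⟨mu, hmu1, hmu2, hmu3⟩ := resize (m + 3) lam hanti h0
  have hz' : plethMult a b (m + 3) mu ≠ 0 := by
    rw [hmu3]
    exact hz
  obtain ⟨hanti', -, -⟩ := H530.zero_stmt a b (m + 3) mu hz'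
  rw [← hmu3 a b, ← hmu3 b a]
  obtain ⟨g1, g2⟩ := h3 a (by omega)
  have hA1 : (1 : ℝ) ≤ a := by exact_mod_cast g2
  have hA0 : (0 : ℝ) < a := by linarith
  have hx1 : ex mu 1 = mu 1 := by
    rw [ex_of_lt mu (show 1 < m + 3 by omega)]
    congr 1
  have hx2 : ex mu 2 = mu 2 := by
    rw [ex_of_lt mu (show 2 < m + 3 by omega)]
    congr 1
  have hl2' : (a : ℝ) ^ (1 + e) ≤ ((ex mu 2 : ℕ) : ℝ) := by
    rw [hmu1]
    exact (Real.rpow_le_rpow_of_exponent_le hA1 (by linarith)).trans hl2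
  rcases le_or_gt ((a : ℝ) ^ (3 + e / 2)) ((mu 1 : ℝ) * mu 2) with h23 | h23
  · refine h1 a b (by omega) ((Nat.mul_le_mul_right _ (by omega)).trans hab') hb2 mu ?_ h23
    rw [← hx2]
    exact (Real.rpow_le_rpow_of_exponent_le hA1 (by linarith)).trans hl2'
  · refine h2 a b (by omega) ((Nat.mul_le_mul_right _ (by omega)).trans hab') (m + 3) mu
      ((Real.rpow_le_rpow_of_exponent_le hA1 (by linarith)).trans hl2') ?_ ⟨m + 3, htm, ?_⟩
    · -- the cells below the first row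
      have h4 : ((cells 1 mu : ℕ) : ℝ) ≤ ((m : ℝ) + 3) * mu 1 := by
        have h5 := cells_one_le mu hanti'
        rw [hx1] at h5
        exact_mod_cast h5
      have h5 : (mu 1 : ℝ) * (a : ℝ) ^ (1 + e) ≤ (a : ℝ) ^ (3 + e / 2) := by
        rw [hx2] at hl2'
        exact (mul_le_mul_of_nonneg_left hl2' (Nat.cast_nonneg _)).trans h23.le
      have h6 : (mu 1 : ℝ) ≤ (a : ℝ) ^ (2 - e / 2) := by
        have h7 : (0 : ℝ) < (a : ℝ) ^ (1 + e) := Real.rpow_pos_of_pos hA0 _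
        refine le_of_mul_le_mul_right (h5.trans (le_of_eq ?_)) h7
        rw [← Real.rpow_add hA0]
        congr 1
        ring
      calc ((cells 1 mu : ℕ) : ℝ) ≤ ((m : ℝ) + 3) * mu 1 := h4
        _ ≤ (a : ℝ) ^ (e / 4) * (a : ℝ) ^ (2 - e / 2) :=
            mul_le_mul g1 h6 (Nat.cast_nonneg _) (Real.rpow_nonneg hA0.le _)
        _ = (a : ℝ) ^ (2 - e / 4) := by
            rw [← Real.rpow_add hA0]
            congr 1
            ring
        _ ≤ (a : ℝ) ^ (2 - t) := Real.rpow_le_rpow_of_exponent_le hA1 (by linarith)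
    · have h4 : cells (m + 3) mu = 0 := by
        unfold cells
        apply Finset.sum_eq_zero
        intro i _
        rw [if_neg]
        have := i.2
        omega
      rw [h4]
      simp

end Vale.Agent.P181.SZA.H376
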