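import Vale.Agent.P181.SZ.Asm

set_option autoImplicit false

/-!
# P181, SZ: the finite assembly for `b ≥ 4 a`

The same proof as `SZ.fin_asm`; `4 * a ≤ b` is enough, and zero rows are allowed if there are
at most `X` rows.
-/

namespace Vale.Agent.P181.SZA.H376

open MvPolynomial
open Vale.Agent.P181.SZ
open Vale.Agent.P181.T4 (HW ex low ex_of_lt ex_anti low_anti)
open Vale.Agent.P181.H280 (plethMult hwSpace)
open Vale.Agent.P181.H463 (gt)
open Vale.Agent.P181.H503 (gt_congr ex_low)

/-- the finite assembly, `b ≥ 4 a` -/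
def FinB : Prop := ∀ (a b n R X Z K w : ℕ) (lam : Fin n → ℕ), Antitone lam →
  ∑ i, lam i = a * b → ((∀ i, 0 < lam i) ∨ n ≤ X) → 3 ≤ R → R < n →
  w = ∑ i : Fin n, (if 1 ≤ (i : ℕ) then lam i else 0) → Z ^ 2 ≤ w → w < (Z + 1) ^ 2 →
  1 ≤ K → 16 * K + 16 ≤ X → 10 ^ 6 * R ^ 4 ≤ X → X ^ 20 ≤ Z → Z * X ^ 14 ≤ ex lam 2 →
  X * a ≤ ex lam 2 → 8 * ex lam R ≤ ex lam 2 →
  X ^ 6 * (R * ex lam R + ∑ i, low R lam i) ≤ w → 100 * (R : ℝ) * Real.log (w + 1) ≤ X →
  4 * w ≤ X ^ K → 100 * K * ((Z + 1) * X) ≤ a → 4 * a ≤ b → 3 * (Z * X ^ 8) ≤ b →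
  plethMult a b n lam ≤ plethMult b a n lam

/-- **The finite assembly** for `b ≥ 4 a`, few rows allowed to be zero. -/
theorem fin_asmB (hU : UpperS) (hL : LowerS) (hSp : ∀ (m : ℕ) (mu : Fin m → ℕ), SplitS (nn m mu))
    (hF : FewS) (hM : MarkS) (hFl : FlowS) (hN : NumS) : FinB := by
  classical
  intro a b n R X Z K w lam hlam hsum hpos hR3 hRn hw hZ1 hZ2 hK hKX hRX hXZ hl2 hXa hlR htail
    hlog hwX hKa hab h8
  obtain ⟨m, rfl⟩ : ∃ m, n = m + 1 := ⟨n - 1, by omega⟩
  have hw' : ∑ i, tl lam i = w := by rw [hw, sum_tl]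
  obtain ⟨S, hS⟩ : ∃ S, S = (Z + 1) * X := ⟨_, rfl⟩
  obtain ⟨Y, hY⟩ : ∃ Y, Y = 2 * K * S := ⟨_, rfl⟩
  obtain ⟨J, hJ⟩ : ∃ J, J = 3 * Y + 3 := ⟨_, rfl⟩
  have hX1 : 1 ≤ X := by omega
  have hXpow : X ≤ X ^ 20 := Nat.le_self_pow (by norm_num) X
  have hZX : X ≤ Z := hXpow.trans hXZ
  have hS1 : Z + 1 ≤ S := by
    rw [hS]
    exact Nat.le_mul_of_pos_right _ (by omega)
  have hKS : S ≤ K * S := Nat.le_mul_of_pos_left _ (by omega)
  have hXS : X ≤ S := by
    rw [hS]
    exact Nat.le_mul_of_pos_left _ (by omega)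
  have hKa' : 100 * (K * S) ≤ a := by
    rw [hS]
    calc 100 * (K * ((Z + 1) * X)) = 100 * K * ((Z + 1) * X) := by ring
      _ ≤ a := hKa
  have hY' : Y = 2 * (K * S) := by rw [hY]; ring
  -- the sums
  set P := PT w with hP
  set N := nn m (tl lam) with hNdef
  set T := P.filter (fun k => (∀ x ∈ k, x ≤ a) ∧ 3 * Multiset.card k ≤ b ∧ LBt a k) with hT
  set A0 := P.filter (fun k => (∀ x ∈ k, x ≤ a) ∧ ¬ LBt a k) with hA0
  have hlow : ∑ k ∈ A0, N k + ∑ k ∈ T, N k ≤ plethMult b a (m + 1) lam := by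
    have h1 := hL a b m lam hsum
    rw [hw'] at h1
    refine le_trans ?_ h1
    rw [← Finset.sum_union]
    · apply Finset.sum_le_sum_of_subset
      intro k hk
      rw [Finset.mem_union, hA0, hT, Finset.mem_filter, Finset.mem_filter] at hk
      rw [Finset.mem_filter]
      rcases hk with ⟨h2, h3, h4⟩ | ⟨h2, h3, h4, _⟩
      · refine ⟨h2, h3, ?_⟩
        have : Multiset.card k ≤ a := by
          by_contra h
          exact h4 (Or.inl (by omega))
        omega
      · exact ⟨h2, h3, h4⟩
    · rw [Finset.disjoint_left]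
      intro k hk1 hk2
      rw [hA0, Finset.mem_filter] at hk1
      rw [hT, Finset.mem_filter] at hk2
      exact hk1.2.2 hk2.2.2.2
  -- the flow
  have hflow : 2 * ∑ k ∈ P.filter (SrcF a J S), N k ≤ ∑ k ∈ T, N k := by
    have h1 := hFl N (hSp m (tl lam)) a J S K X w hK (by omega) (by omega) (by
      rw [hS, mul_pow]
      exact Nat.mul_le_mul_right _ hZ2.le) hwX (by
      have : 6 * K * S = 6 * (K * S) := by ring
      omega)
    refine h1.trans (Finset.sum_le_sum_of_subset ?_)
    intro k hk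
    rw [Finset.mem_filter] at hk
    obtain ⟨h2, h3, h4, ⟨x, hx, h5, h6⟩, h7⟩ := hk
    rw [← hY] at h5 h6
    rw [hT, Finset.mem_filter]
    refine ⟨h2, h4, ?_, Or.inr ⟨x, hx, by omega, fun y hy => ?_⟩⟩
    · rw [mem_PT] at h2
      have h9 := Multiset.filter_add_not (· < S) k
      have h10 : Multiset.card k = Multiset.card (k.filter (· < S)) +
          Multiset.card (k.filter (fun y => ¬ y < S)) := by
        conv_lhs => rw [← h9]
        rw [Multiset.card_add]
      have h11 : Multiset.card (k.filter (fun y => ¬ y < S)) * S ≤ w := by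
        have h12 := Multiset.card_nsmul_le_sum (s := k.filter (fun y => ¬ y < S)) (a := S)
          (fun y hy => by
            rw [Multiset.mem_filter] at hy
            omega)
        rw [smul_eq_mul] at h12
        have h13 : (k.filter (fun y => ¬ y < S)).sum ≤ k.sum := by
          conv_rhs => rw [← h9]
          rw [Multiset.sum_add]
          omega
        omega
      have h14 : Multiset.card (k.filter (fun y => ¬ y < S)) ≤ Z + 1 := by
        by_contra h
        have h15 : (Z + 2) * S ≤ w := by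
          refine le_trans (Nat.mul_le_mul_right _ ?_) h11
          omega
        have h16 : (Z + 1) * (Z + 1) ≤ (Z + 2) * S := Nat.mul_le_mul (by omega) hS1
        have h17 : (Z + 1) ^ 2 = (Z + 1) * (Z + 1) := sq _
        omega
      omega
    · have := h6 y hy
      omega
  -- few letters
  have hfew : 2 * ∑ k ∈ P.filter (fun k => Multiset.card k < J), N k ≤ ∑ k ∈ T, N k := by
    by_cases hnJ : m + 1 ≤ J
    · have hJX : J ≤ Z * X ^ 2 := by
        have e1 : Z * X ^ 2 = Z * X * X := by ring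
        have e2 : Z * X * (16 * K + 16) ≤ Z * X * X := Nat.mul_le_mul_left _ hKX
        have e3 : Z * X * (16 * K + 16) = 16 * (K * (Z * X)) + 16 * (Z * X) := by ring
        have e4 : K * S = K * (Z * X) + K * X := by rw [hS]; ring
        have e5 : K * X ≤ K * (Z * X) := Nat.mul_le_mul_left _ (Nat.le_mul_of_pos_left _ (by omega))
        have e6 : 1 ≤ Z * X := Nat.mul_pos (by omega) (by omega)
        omega
      have hZ3 : w ≤ 2 * Z ^ 2 := by
        have e1 : (Z + 1) ^ 2 = Z ^ 2 + 2 * Z + 1 := by ring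
        have e2 : 2 * Z ≤ Z * Z := Nat.mul_le_mul_right _ (by omega)
        have e3 : Z ^ 2 = Z * Z := sq _
        omega
      obtain ⟨r, x, t, a0, b0, nu, h1, ht, ha0, _, hc, hnu, hs, hb0, hbig⟩ :=
        hN (m + 1) J R X Z w a lam hlam hR3 hRn hnJ hw hZ1 hZ3 hJX hRX hXZ hl2 hXa (by omega)
          hlR htail hlog
      have hmark := marked hU hM (mu := tl lam) (nu := nu) (r := r) (x := x) (t := t) (a0 := a0)
        (b0 := b0) (w := w) (a := a) (b := b) (by omega) ht ha0 hc hw' (fun i => by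
          have h2 := hnu i.succ (by simp)
          have h3 : ((i.succ : Fin (m + 1)) : ℕ) ≤ r + 1 ↔ (i : ℕ) ≤ r := by
            rw [Fin.val_succ]
            omega
          simp only [h3] at h2
          exact h2.symm) hs (by omega)
      refine le_trans ?_ hmark
      refine le_trans (Nat.mul_le_mul_left 2 ?_) hbig
      refine le_trans ?_ (few_bound (by omega) (by omega) hlam hw')
      refine le_trans ?_ (hF m w J (tl lam) hw')
      apply Finset.sum_le_sum_of_subset
      intro k hk
      rw [Finset.mem_filter] at hk ⊢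
      exact ⟨hk.1, by omega⟩
    · have hpos : ∀ i, 0 < lam i := by
        rcases hpos with h | h
        · exact h
        · exfalso
          omega
      have h1 := hF m w (J - 1) (tl lam) hw'
      rw [hw_zero (by omega) (tl lam) (tl_anti hlam) (fun i => hpos _)] at h1
      have h2 : ∑ k ∈ P.filter (fun k => Multiset.card k < J), N k ≤
          ∑ k ∈ P.filter (fun k => Multiset.card k ≤ J - 1), N k := by
        apply Finset.sum_le_sum_of_subset
        intro k hk
        rw [Finset.mem_filter] at hk ⊢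
        exact ⟨hk.1, by omega⟩
      have h3 : ∑ k ∈ P.filter (fun k => Multiset.card k < J), N k = 0 := by
        have := h2.trans h1
        omega
      rw [h3]
      simp
  -- the end
  have hup := hU a b m lam
  rw [hw'] at hup
  have hcover : ∑ k ∈ P.filter (fun k => (∀ x ∈ k, x ≤ b) ∧ ¬ LBt a k), N k ≤
      ∑ k ∈ A0, N k + (∑ k ∈ P.filter (SrcF a J S), N k +
        ∑ k ∈ P.filter (fun k => Multiset.card k < J), N k) := by
    have h1 : P.filter (fun k => (∀ x ∈ k, x ≤ b) ∧ ¬ LBt a k) ⊆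
        A0 ∪ (P.filter (SrcF a J S) ∪ P.filter (fun k => Multiset.card k < J)) := by
      intro k hk
      rw [Finset.mem_filter] at hk
      obtain ⟨h2, _, h3⟩ := hk
      rw [Finset.mem_union, Finset.mem_union, hA0, Finset.mem_filter, Finset.mem_filter,
        Finset.mem_filter]
      by_cases h4 : ∀ x ∈ k, x ≤ a
      · exact Or.inl ⟨h2, h4, h3⟩
      · push Not at h4
        by_cases h5 : Multiset.card k < J
        · exact Or.inr (Or.inr ⟨h2, h5⟩)
        · refine Or.inr (Or.inl ⟨h2, by omega, h4, ?_⟩)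
          refine (Multiset.card_le_card (Multiset.filter_le _ _)).trans ?_
          by_contra h
          exact h3 (Or.inl (by omega))
    refine (Finset.sum_le_sum_of_subset h1).trans ?_
    exact (sum_union_le' _ _ _).trans (Nat.add_le_add_left (sum_union_le' _ _ _) _)
  have hup' : plethMult a b (m + 1) lam ≤
      ∑ k ∈ P.filter (fun k => (∀ x ∈ k, x ≤ b) ∧ ¬ LBt a k), N k := by
    convert hup
  omega

end Vale.Agent.P181.SZA.H376
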