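import Vale.Agent.P181.SZA2.Num

set_option autoImplicit false

/-!
# P181, SZ: the numbers of the finite assembly when `b ≥ 4 a`

Here `l2, lR` are the rows with (0-based) index `2, R`, `cR` is the number of cells in the rows
with index at least `R`, and `w` is the number of cells below the first row; `q = a ^ δ`.
-/

namespace Vale.Agent.P181.SZA.H376

open Vale.Agent.P181.SZA2

theorem num_bonus {A q : ℝ} {a b R K l2 lR cR w : ℕ} (hA : A = a) (hR : 3 ≤ R)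
    (hq1 : 4 * 10 ^ 6 * (R : ℝ) ^ 4 ≤ q) (hq2 : 1000 * (K : ℝ) ≤ q)
    (hAq : q ^ 80 ≤ A) (hb : 4 * a ≤ b) (hl2 : A * q ^ 79 ≤ l2)
    (hw : (w : ℝ) * q ^ 60 ≤ A ^ 2) (hc : (cR : ℝ) * q ^ 80 ≤ l2)
    (h5 : lR ≤ cR) (h7 : 2 * l2 ≤ w)
    (hKq : 4 * A ^ 2 ≤ (q / 2) ^ K) (hlog : 400 * R * Real.log A ≤ q) :
    ∃ X Z : ℕ, R + 1 ≤ X ∧ Z ^ 2 ≤ w ∧ w < (Z + 1) ^ 2 ∧ 16 * K + 16 ≤ X ∧ 10 ^ 6 * R ^ 4 ≤ X ∧
      X ^ 20 ≤ Z ∧ Z * X ^ 14 ≤ l2 ∧ X * a ≤ l2 ∧ 8 * lR ≤ l2 ∧ X ^ 6 * (R * lR + cR) ≤ w ∧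
      100 * (R : ℝ) * Real.log (w + 1) ≤ X ∧ 4 * w ≤ X ^ K ∧
      100 * K * ((Z + 1) * X) ≤ a ∧ 3 * (Z * X ^ 8) ≤ b := by
  have hR3 : (3 : ℝ) ≤ R := by exact_mod_cast hR
  have hR0 : (0 : ℝ) ≤ R := by linarith
  have hR4 : (81 : ℝ) ≤ (R : ℝ) ^ 4 := by
    calc (81 : ℝ) = 3 ^ 4 := by norm_num
      _ ≤ (R : ℝ) ^ 4 := pow_le_pow_left₀ (by norm_num) hR3 4
  have hRR : (R : ℝ) ≤ (R : ℝ) ^ 4 := by
    calc (R : ℝ) = (R : ℝ) ^ 1 := (pow_one _).symm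
      _ ≤ (R : ℝ) ^ 4 := pow_le_pow_right₀ (by linarith) (by norm_num)
  have hq : (1000 : ℝ) ≤ q := by linarith
  have hqR : 1000 * (R : ℝ) ≤ q := by linarith
  have hq1' : (1 : ℝ) ≤ q := by linarith
  have hA1 : 1 ≤ A := (one_le_pow₀ hq1').trans hAq
  have hA0 : 0 ≤ A := by linarith
  have hwl2 : 2 * (l2 : ℝ) ≤ w := by exact_mod_cast h7
  have hwl : 2 * (A * q ^ 79) ≤ w := by linarith
  have hc0 : (0 : ℝ) ≤ cR := Nat.cast_nonneg _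
  obtain ⟨X, hX1, hX2⟩ : ∃ X : ℕ, (X : ℝ) ≤ q ∧ q / 2 ≤ X := by
    refine ⟨⌊q⌋₊, Nat.floor_le (by linarith), ?_⟩
    have := Nat.lt_floor_add_one q
    linarith
  obtain ⟨Z, hZ1, hZ2⟩ : ∃ Z : ℕ, Z ^ 2 ≤ w ∧ w < (Z + 1) ^ 2 :=
    ⟨Nat.sqrt w, Nat.sqrt_le' w, Nat.lt_succ_sqrt' w⟩
  have hX0 : (0 : ℝ) ≤ X := Nat.cast_nonneg _
  have hZ0 : (0 : ℝ) ≤ Z := Nat.cast_nonneg _
  have hZq := Z_le hA1 hq (by exact_mod_cast hZ1 : (Z : ℝ) ^ 2 ≤ w) hw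
  have hZl := Z_ge hA1 hq hAq hZ0 (by exact_mod_cast hZ2 : (w : ℝ) < ((Z : ℝ) + 1) ^ 2) hwl
  have hZ1' : (1 : ℝ) ≤ Z := (one_le_pow₀ hq1').trans hZl
  have hlRc : (lR : ℝ) ≤ cR := by exact_mod_cast h5
  have hw1 : (1 : ℝ) ≤ w := by
    have : (1 : ℝ) ≤ A * q ^ 79 := one_le_mul_of_one_le_of_one_le hA1 (one_le_pow₀ hq1')
    linarith
  refine ⟨X, Z, ?_, hZ1, hZ2, ?_, ?_, ?_, ?_, ?_, ?_, ?_, ?_, ?_, ?_, ?_⟩
  · have e1 : ((R + 1 : ℕ) : ℝ) ≤ X := by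
      push_cast
      linarith
    exact_mod_cast e1
  · have e1 : ((16 * K + 16 : ℕ) : ℝ) ≤ X := by
      push_cast
      linarith
    exact_mod_cast e1
  · have e1 : ((10 ^ 6 * R ^ 4 : ℕ) : ℝ) ≤ X := by
      push_cast
      linarith
    exact_mod_cast e1
  · have e1 : ((X ^ 20 : ℕ) : ℝ) ≤ Z := by
      push_cast
      exact (pow_le_pow_left₀ hX0 hX1 20).trans ((pow_le_pow_right₀ hq1' (by norm_num)).trans hZl)
    exact_mod_cast e1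
  · exact_mod_cast ZX14 hA0 hq hX0 hX1 hZ0 hZq hl2
  · have e1 : ((X * a : ℕ) : ℝ) ≤ l2 := by
      push_cast
      rw [← hA]
      calc (X : ℝ) * A = X * (A * q ^ 0) := by ring
        _ ≤ A * q ^ 79 := Aq_le hA0 hq1' _ 0 79 (by norm_num) hX1
        _ ≤ l2 := hl2
    exact_mod_cast e1
  · have e1 : ((8 * lR : ℕ) : ℝ) ≤ l2 := by
      push_cast
      have e2 := q_mul hq1' 8 0 80 (by norm_num) (by linarith)
      rw [pow_zero, mul_one] at e2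
      calc 8 * (lR : ℝ) ≤ 8 * cR := by linarith
        _ = cR * 8 := mul_comm _ _
        _ ≤ cR * q ^ 80 := mul_le_mul_of_nonneg_left e2 hc0
        _ ≤ l2 := hc
    exact_mod_cast e1
  · have e1 : ((X ^ 6 * (R * lR + cR) : ℕ) : ℝ) ≤ w := by
      push_cast
      have e3 : (R : ℝ) * lR ≤ R * cR := mul_le_mul_of_nonneg_left hlRc hR0
      have e4 := q_mul hq1' ((R : ℝ) + 1) 6 80 (by norm_num) (by linarith)
      calc (X : ℝ) ^ 6 * (R * lR + cR) ≤ q ^ 6 * ((R + 1) * cR) :=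
            mul_le_mul (pow_le_pow_left₀ hX0 hX1 6) (by linarith) (by positivity) (by positivity)
        _ = cR * ((R + 1) * q ^ 6) := by ring
        _ ≤ cR * q ^ 80 := mul_le_mul_of_nonneg_left e4 hc0
        _ ≤ l2 := hc
        _ ≤ w := by linarith [(Nat.cast_nonneg l2 : (0 : ℝ) ≤ l2)]
    exact_mod_cast e1
  · exact log_le hq hR0 hX2 hw1 hw hlog
  · exact_mod_cast pow_K hq hX2 (Nat.cast_nonneg w) hw hKq
  · have e1 := KZX hq (Nat.cast_nonneg K) hq2 hX0 hX1 hZ1' hZq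
    rw [hA] at e1
    exact_mod_cast e1
  · have e2 : 3 * ((Z : ℝ) * X ^ 8) ≤ A := by
      calc 3 * ((Z : ℝ) * X ^ 8) ≤ 3 * (Z * q ^ 8) := by
            apply mul_le_mul_of_nonneg_left _ (by norm_num)
            exact mul_le_mul_of_nonneg_left (pow_le_pow_left₀ hX0 hX1 8) hZ0
        _ = Z * (3 * q ^ 8) := by ring
        _ ≤ Z * q ^ 30 :=
          mul_le_mul_of_nonneg_left (q_mul hq1' 3 8 30 (by norm_num) (by linarith)) hZ0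
        _ ≤ A := hZq
    have e3 : 3 * (Z * X ^ 8) ≤ a := by
      rw [hA] at e2
      exact_mod_cast e2
    omega

end Vale.Agent.P181.SZA.H376
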