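import Vale.Agent.P181.SZA.AsmB
import Vale.Agent.P181.SZA.BonusNum
import Vale.Agent.P181.H530.Pad
import Vale.Agent.P181.H530.Zero
import Vale.Agent.P181.T7.Cells

set_option autoImplicit false

/-!
# P181, SZ: shapes with a long third row and few cells below the first row, for all `b ≥ 4 a`
-/

namespace Vale.Agent.P181.SZA.H376

open Filter
open Vale.Agent.P181.SZ
open Vale.Agent.P181.T4 (ex low ex_of_lt ex_anti)
open Vale.Agent.P181.T7 (cells below below_cells cells_pad)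
open Vale.Agent.P181.H280 (plethMult)

/-- zero rows can be added or removed -/
lemma resize {N : ℕ} (n' : ℕ) (lam : Fin N → ℕ) (hanti : Antitone lam)
    (h0 : N ≤ n' ∨ ex lam n' = 0) :
    ∃ mu : Fin n' → ℕ, (∀ i, ex mu i = ex lam i) ∧ (∀ j, cells j mu = cells j lam) ∧
      ∀ a b, plethMult a b n' mu = plethMult a b N lam := by
  rcases Nat.le_total N n' with h | h
  · obtain ⟨k, rfl⟩ := Nat.exists_eq_add_of_le h
    refine ⟨fun i => if h : (i : ℕ) < N then lam ⟨i, h⟩ else 0, fun i => ?_, fun j => ?_,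
      fun a b => H530.pad_stmt a b N k lam⟩
    · unfold ex
      by_cases h1 : i < N
      · rw [dif_pos (show i < N + k by omega), dif_pos h1]
        simp only
        rw [dif_pos h1]
      · rw [dif_neg h1]
        by_cases h2 : i < N + k
        · rw [dif_pos h2]
          simp only
          rw [dif_neg h1]
        · rw [dif_neg h2]
    · exact cells_pad j lam
  · obtain ⟨k, rfl⟩ := Nat.exists_eq_add_of_le h
    set mu : Fin n' → ℕ := fun i => lam (Fin.castAdd k i) with hmu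
    have hz : ∀ i : Fin (n' + k), n' ≤ (i : ℕ) → lam i = 0 := by
      intro i hi
      have h2 : ex lam (i : ℕ) ≤ ex lam n' := ex_anti hanti hi
      rw [ex_of_lt lam i.2] at h2
      rcases h0 with h3 | h3
      · have := i.2
        omega
      · have h4 : lam ⟨(i : ℕ), i.2⟩ = lam i := rfl
        omega
    have hlam : lam = fun i : Fin (n' + k) => if h : (i : ℕ) < n' then mu ⟨i, h⟩ else 0 := by
      funext i
      by_cases hi : (i : ℕ) < n'
      · rw [dif_pos hi, hmu]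
        congr 1
      · rw [dif_neg hi]
        exact hz i (by omega)
    refine ⟨mu, fun i => ?_, fun j => ?_, fun a b => ?_⟩
    · unfold ex
      by_cases h1 : i < n'
      · rw [dif_pos h1, dif_pos (show i < n' + k by omega), hmu]
        congr 1
      · rw [dif_neg h1]
        by_cases h2 : i < n' + k
        · rw [dif_pos h2]
          exact (hz ⟨i, h2⟩ (by simp only; omega)).symm
        · rw [dif_neg h2]
    · conv_rhs => rw [hlam]
      exact (cells_pad j mu).symm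
    · conv_rhs => rw [hlam]
      exact (H530.pad_stmt a b n' k mu).symm

lemma sum_low {n : ℕ} (R : ℕ) (mu : Fin n → ℕ) : ∑ i, low R mu i = cells R mu := by
  rw [← below_cells]
  unfold below low
  rw [Finset.sum_Ico_eq_sum_range, Finset.sum_range]

lemma below_succ {n R : ℕ} (lam : Fin n → ℕ) : below R lam = ex lam R + below (R + 1) lam := by
  unfold below
  rcases Nat.lt_or_ge R n with h | h
  · rw [Finset.sum_eq_sum_Ico_succ_bot h]
  · rw [Finset.Ico_eq_empty (by omega), Finset.Ico_eq_empty (by omega)]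
    have : ex lam R = 0 := by rw [ex, dif_neg (by omega)]
    simp [this]

lemma ex_le_cells {n : ℕ} (R : ℕ) (mu : Fin n → ℕ) : ex mu R ≤ cells R mu := by
  rw [← below_cells]
  have := below_succ (R := R) mu
  omega

lemma cells_anti {n : ℕ} {i j : ℕ} (h : i ≤ j) (mu : Fin n → ℕ) : cells j mu ≤ cells i mu := by
  unfold cells
  apply Finset.sum_le_sum
  intro k _
  split_ifs with h1 h2
  · exact le_rfl
  · omega
  · exact Nat.zero_le _
  · exact le_rfl

/-- **The bonus clause.** -/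
theorem bonus_of_fin (hF : FinB) (ε : ℝ) (hε : 0 < ε) : ∃ a₀ : ℕ, ∀ a b : ℕ, a₀ ≤ a →
    4 * a ≤ b → ∀ (n : ℕ) (lam : Fin n → ℕ),
    (a : ℝ) ^ (1 + ε) ≤ ((ex lam 2 : ℕ) : ℝ) → ((cells 1 lam : ℕ) : ℝ) ≤ (a : ℝ) ^ (2 - ε) →
    (∃ R : ℕ, (R : ℝ) * ε ≤ 1 ∧ (a : ℝ) ^ ε * ((cells R lam : ℕ) : ℝ) ≤ ((ex lam 2 : ℕ) : ℝ)) →
    plethMult a b n lam ≤ plethMult b a n lam := by
  obtain ⟨e, he⟩ : ∃ e, e = min ε 1 := ⟨_, rfl⟩
  have he0 : 0 < e := by
    rw [he]
    exact lt_min hε one_pos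
  have heε : e ≤ ε := by
    rw [he]
    exact min_le_left _ _
  have he1 : e ≤ 1 := by
    rw [he]
    exact min_le_right _ _
  obtain ⟨δ, hδ⟩ : ∃ δ, δ = e / 80 := ⟨_, rfl⟩
  have hδ0 : 0 < δ := by
    rw [hδ]
    positivity
  obtain ⟨R₀, hR0⟩ : ∃ R₀ : ℕ, R₀ = max 3 ⌈1 / ε⌉₊ := ⟨_, rfl⟩
  obtain ⟨K, hK⟩ : ∃ K : ℕ, K = ⌈3 / δ⌉₊ := ⟨_, rfl⟩
  have hK3 : 3 ≤ δ * K := by
    have h1 : 3 / δ ≤ K := by
      rw [hK]
      exact Nat.le_ceil _
    rw [div_le_iff₀ hδ0] at h1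
    linarith
  have hlim : Tendsto (fun a : ℕ => (a : ℝ) ^ δ) atTop atTop :=
    (tendsto_rpow_atTop hδ0).comp tendsto_natCast_atTop_atTop
  have hlog : ∀ᶠ a : ℕ in atTop, 400 * (R₀ : ℝ) * Real.log a ≤ (a : ℝ) ^ δ := by
    have h1 := (isLittleO_log_rpow_atTop hδ0).comp_tendsto tendsto_natCast_atTop_atTop
    have h2 := h1.def (show (0 : ℝ) < 1 / (400 * (R₀ : ℝ) + 1) by positivity)
    filter_upwards [h2, eventually_ge_atTop 1] with a ha ha1
    have h3 : (1 : ℝ) ≤ a := by exact_mod_cast ha1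
    have h4 : 0 ≤ Real.log a := Real.log_nonneg h3
    simp only [Function.comp_apply, Real.norm_eq_abs] at ha
    rw [abs_of_nonneg h4, abs_of_nonneg (by positivity : (0 : ℝ) ≤ (a : ℝ) ^ δ)] at ha
    rw [div_mul_eq_mul_div, one_mul, le_div_iff₀ (by positivity)] at ha
    nlinarith
  obtain ⟨a₀, ha₀⟩ := eventually_atTop.1 ((hlim.eventually_ge_atTop
    (4 * 10 ^ 6 * (R₀ : ℝ) ^ 4)).and ((hlim.eventually_ge_atTop (1000 * (K : ℝ))).and
      (hlog.and ((eventually_ge_atTop (4 * 2 ^ K)).and (eventually_ge_atTop 1)))))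
  refine ⟨a₀, fun a b ha hab N lam h3 hw htail => ?_⟩
  obtain ⟨g1, g2, g3, g4, g5⟩ := ha₀ a ha
  by_cases hz : plethMult a b N lam = 0
  · rw [hz]
    exact Nat.zero_le _
  obtain ⟨hanti, hsum, _⟩ := H530.zero_stmt a b N lam hz
  have hA1 : (1 : ℝ) ≤ a := by exact_mod_cast g5
  have hA0 : (0 : ℝ) < a := by linarith
  -- the number of positive rows
  have hex : ∃ k, k = N ∨ ex lam k = 0 := ⟨N, Or.inl rfl⟩
  obtain ⟨k, hkN, hk1, hk2⟩ : ∃ k, k ≤ N ∧ (k = N ∨ ex lam k = 0) ∧ ∀ i, i < k → 0 < ex lam i := by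
    refine ⟨Nat.find hex, Nat.find_min' hex (Or.inl rfl), Nat.find_spec hex, fun i hi => ?_⟩
    have h1 := Nat.find_min hex hi
    push Not at h1
    exact Nat.pos_of_ne_zero h1.2
  obtain ⟨n', hn'R, hn0, hn1⟩ : ∃ n', R₀ < n' ∧ (N ≤ n' ∨ ex lam n' = 0) ∧
      (n' = k ∨ n' = R₀ + 1) := by
    by_cases h : R₀ < k
    · refine ⟨k, h, ?_, Or.inl rfl⟩
      rcases hk1 with h1 | h1
      · exact Or.inl h1.symm.le
      · exact Or.inr h1
    · refine ⟨R₀ + 1, Nat.lt_succ_self _, ?_, Or.inr rfl⟩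
      rcases hk1 with h1 | h1
      · exact Or.inl (by omega)
      · right
        have h2 : ex lam (R₀ + 1) ≤ ex lam k := ex_anti hanti (by omega)
        omega
  obtain ⟨mu, hmu1, hmu2, hmu3⟩ := resize n' lam hanti hn0
  have hz' : plethMult a b n' mu ≠ 0 := by
    rw [hmu3]
    exact hz
  obtain ⟨hanti', hsum', _⟩ := H530.zero_stmt a b n' mu hz'
  rw [← hmu3 a b, ← hmu3 b a]
  -- the numbers
  have hR3 : 3 ≤ R₀ := by
    rw [hR0]
    exact le_max_left _ _
  obtain ⟨R, hRε, hR⟩ := htail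
  have hRR : R ≤ R₀ := by
    have h1 : (R : ℝ) ≤ 1 / ε := by
      rw [le_div_iff₀ hε]
      exact hRε
    have h2 : R ≤ ⌈1 / ε⌉₊ := by
      exact_mod_cast h1.trans (Nat.le_ceil _)
    rw [hR0]
    exact h2.trans (le_max_right _ _)
  obtain ⟨q, hq⟩ : ∃ q : ℝ, q = (a : ℝ) ^ δ := ⟨_, rfl⟩
  have hqn : ∀ n : ℕ, q ^ n = (a : ℝ) ^ (δ * n) := by
    intro n
    rw [hq, Real.rpow_mul hA0.le, Real.rpow_natCast]
  have hq80 : q ^ 80 = (a : ℝ) ^ e := by
    rw [hqn, hδ]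
    congr 1
    push_cast
    ring
  have hAq : q ^ 80 ≤ a := by
    rw [hq80]
    conv_rhs => rw [← Real.rpow_one (a : ℝ)]
    exact Real.rpow_le_rpow_of_exponent_le hA1 he1
  have hl2 : (a : ℝ) * q ^ 79 ≤ ((ex lam 2 : ℕ) : ℝ) := by
    refine le_trans ?_ h3
    rw [hqn]
    conv_lhs => rw [← Real.rpow_one (a : ℝ), Real.rpow_one, ← Real.rpow_one (a : ℝ)]
    rw [Real.rpow_one]
    calc (a : ℝ) * (a : ℝ) ^ (δ * (79 : ℕ)) = (a : ℝ) ^ (1 + δ * (79 : ℕ)) := by
          rw [Real.rpow_add hA0, Real.rpow_one]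
      _ ≤ (a : ℝ) ^ (1 + ε) := by
          apply Real.rpow_le_rpow_of_exponent_le hA1
          push_cast
          linarith
  have hw' : ((cells 1 lam : ℕ) : ℝ) * q ^ 60 ≤ (a : ℝ) ^ 2 := by
    calc ((cells 1 lam : ℕ) : ℝ) * q ^ 60 ≤ (a : ℝ) ^ (2 - ε) * q ^ 60 :=
          mul_le_mul_of_nonneg_right hw (by rw [hq]; positivity)
      _ = (a : ℝ) ^ (2 - ε + δ * (60 : ℕ)) := by rw [hqn, ← Real.rpow_add hA0]
      _ ≤ (a : ℝ) ^ (2 : ℝ) := by
          apply Real.rpow_le_rpow_of_exponent_le hA1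
          push_cast
          linarith
      _ = (a : ℝ) ^ 2 := by rw [← Real.rpow_natCast]; norm_num
  have hc : ((cells R₀ lam : ℕ) : ℝ) * q ^ 80 ≤ ((ex lam 2 : ℕ) : ℝ) := by
    refine le_trans ?_ hR
    rw [hq80, mul_comm]
    have h1 : ((cells R₀ lam : ℕ) : ℝ) ≤ ((cells R lam : ℕ) : ℝ) := by
      exact_mod_cast cells_anti hRR lam
    exact mul_le_mul (Real.rpow_le_rpow_of_exponent_le hA1 heε) h1 (Nat.cast_nonneg _)
      (by positivity)
  have hKq : 4 * (a : ℝ) ^ 2 ≤ (q / 2) ^ K := by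
    rw [div_pow, le_div_iff₀ (by positivity), hqn]
    have h1 : (4 * 2 ^ K : ℝ) ≤ a := by exact_mod_cast g4
    calc 4 * (a : ℝ) ^ 2 * 2 ^ K = (4 * 2 ^ K) * (a : ℝ) ^ 2 := by ring
      _ ≤ a * (a : ℝ) ^ 2 := mul_le_mul_of_nonneg_right h1 (by positivity)
      _ = (a : ℝ) ^ (3 : ℝ) := by
          rw [show (3 : ℝ) = ((3 : ℕ) : ℝ) by norm_num, Real.rpow_natCast]
          ring
      _ ≤ (a : ℝ) ^ (δ * K) := Real.rpow_le_rpow_of_exponent_le hA1 hK3
  have h7 : 2 * ex lam 2 ≤ cells 1 lam := by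
    rw [← below_cells]
    have e1 := below_succ (R := 1) lam
    have e2 := below_succ (R := 2) lam
    have e3 : ex lam 2 ≤ ex lam 1 := ex_anti hanti (by norm_num)
    norm_num at e1 e2
    omega
  obtain ⟨X, Z, c0, c1, c2, c3, c4, c5, c6, c7, c8, c9, c10, c11, c12, c13⟩ :=
    num_bonus (A := a) (q := q) (a := a) (b := b) (R := R₀) (K := K) (l2 := ex lam 2)
      (lR := ex lam R₀) (cR := cells R₀ lam) (w := cells 1 lam) rfl hR3 (by rw [hq]; exact g1)
      (by rw [hq]; exact g2) hAq hab hl2 hw' hc (ex_le_cells _ _) h7 hKq (by rw [hq]; exact g3)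
  have hK1 : 1 ≤ K := by
    by_contra h
    have : K = 0 := by omega
    rw [this] at hK3
    norm_num at hK3
  apply hF a b n' R₀ X Z K (cells 1 lam) mu hanti' hsum' ?_ hR3 hn'R
    (by rw [← hmu2 1]; rfl) c1 c2 hK1 c3 c4 c5 (by rw [hmu1]; exact c6) (by rw [hmu1]; exact c7)
    (by rw [hmu1, hmu1]; exact c8) (by rw [hmu1, sum_low, hmu2]; exact c9) c10 c11 c12 hab c13
  rcases hn1 with h | h
  · left
    intro i
    have h1 := hk2 i (by have := i.2; omega)
    rw [← hmu1, ex_of_lt mu i.2] at h1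
    exact h1
  · right
    omega

end Vale.Agent.P181.SZA.H376
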